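import Vale.Agent.P280.H981.Sl2
import Vale.Agent.P280.H83.Api3

/-! P280, plan N, helper for D04: the bracket of the fields of two vertices. -/

open DirectSum Vale.Agent.P280.T Vale.Agent.P280.H127

namespace Vale.Agent.P280.N.H448

variable {r : ℕ} {R : Type} [CommRing R] [IsDomain R] [Algebra ℂ R]
  {𝒜 : ℕ × (Fin r → ℤ) → Submodule ℂ R} [GradedAlgebra 𝒜]

/-- A diagonal field acts on homogeneous global fields by the weight. -/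
theorem diag_lie {h v : VF R} {α : ℂ} {β : (Fin r → ℤ) →+ ℤ} {ω : Fin r → ℤ}
    (hh : ∀ d m, ∀ x ∈ 𝒜 (d, m), h (iK x) = -(((d : ℂ) * α + (β m : ℂ)) • iK x))
    (hv : HV 𝒜 ω v) (hg : Glob v) : ⁅h, v⁆ = (β ω : ℂ) • v := by
  refine vf_ext_hom (𝒜 := 𝒜) fun d m x hx => ?_
  obtain ⟨a, ha⟩ := hg x
  have h1 := hv d m x hx
  rw [ha] at h1
  have h2 := h1.mem
  rw [vlie_apply, ha, hh d _ a h2, hh d m x hx, Derivation.map_neg, Derivation.map_smul, ha, Derivation.smul_apply,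
    ha, map_sub]
  rw [← neg_smul, ← neg_smul, ← sub_smul]
  congr 1
  push_cast
  ring

/-- The bracket of `[F₂, E₁]` and `[F₁, E₂]`, if `[E₁, E₂] = 0 = [F₁, F₂]`. -/
theorem brk_brk {E₁ F₁ E₂ F₂ H₁ H₂ : VF R} {b₁ b₂ : ℂ} (h1 : ⁅E₁, F₁⁆ = H₁) (h2 : ⁅E₂, F₂⁆ = H₂)
    (hE : ⁅E₁, E₂⁆ = 0) (hF : ⁅F₂, F₁⁆ = 0) (h3 : ⁅H₁, F₂⁆ = -(b₁ • F₂))
    (h4 : ⁅H₂, E₁⁆ = b₂ • E₁) :
    ⁅⁅F₂, E₁⁆, ⁅F₁, E₂⁆⁆ = b₂ • H₁ - b₁ • H₂ := by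
  have h5 : ⁅⁅F₂, E₁⁆, F₁⁆ = b₁ • F₂ := by
    rw [vlie_lie, h1, hF, vlie_zero, sub_zero, ← vlie_skew, h3, neg_neg]
  have h6 : ⁅⁅F₂, E₁⁆, E₂⁆ = -(b₂ • E₁) := by
    rw [vlie_lie, hE, vlie_zero, zero_sub, ← vlie_skew F₂ E₂, h2, vlie_neg,
      neg_neg, ← vlie_skew, h4]
  have h7 : ⁅⁅F₂, E₁⁆, ⁅F₁, E₂⁆⁆ = ⁅⁅⁅F₂, E₁⁆, F₁⁆, E₂⁆ + ⁅F₁, ⁅⁅F₂, E₁⁆, E₂⁆⁆ := by
    rw [vlie_lie ⁅F₂, E₁⁆ F₁ E₂, sub_add_cancel]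
  rw [h7, h5, h6, vsmul_lie, vlie_neg, vlie_smul, ← vlie_skew F₂ E₂, h2,
    ← vlie_skew F₁ E₁, h1, smul_neg, smul_neg, neg_neg]
  abel

end Vale.Agent.P280.N.H448
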