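import Vale.Agent.P280.H127.EdgeC
import Vale.Agent.P280.H170.NL

/-! P280, plan N, helper for D04: the generic functional of a face and the form of its kernel. -/

open DirectSum Vale.Agent.P280.T Vale.Agent.P280.H127

namespace Vale.Agent.P280.N.H448

section gen
variable {r : ℕ}

/-- A homomorphism which vanishes on the `e j` and is generic otherwise. -/
theorem exists_generic_face {S : Set (Fin r → ℤ)} (hS : S.Finite) {m : ℕ}
    (e : Fin m → Fin r → ℤ) (N : ℤ) (b : Fin m → ((Fin r → ℤ) →+ ℤ))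
    (hb : ∀ i j, b i (e j) = if j = i then N else 0) :
    ∃ g : (Fin r → ℤ) →+ ℤ, (∀ j, g (e j) = 0) ∧
      ∀ μ ∈ S, g μ = 0 → N • μ = ∑ i, b i μ • e i := by
  let φ : (Fin r → ℤ) →+ (Fin r → ℤ) :=
    { toFun := fun μ => N • μ - ∑ i, b i μ • e i
      map_zero' := by simp
      map_add' := fun x y => by
        simp only [map_add, add_smul, Finset.sum_add_distrib, smul_add]
        abel }
  have hφ : ∀ μ, φ μ = N • μ - ∑ i, b i μ • e i := fun _ => rfl
  obtain ⟨g, hg⟩ := H587.exists_generic (S := φ '' S ∪ {0}) ((hS.image φ).union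
    (Set.finite_singleton 0))
  refine ⟨g.comp φ, fun j => ?_, fun μ hμ h0 => ?_⟩
  · rw [AddMonoidHom.comp_apply, hφ]
    have h1 : ∑ i, b i (e j) • e i = N • e j := by
      rw [Finset.sum_eq_single j]
      · rw [hb, if_pos rfl]
      · intro i _ hij
        rw [hb, if_neg (Ne.symm hij), zero_smul]
      · intro h
        exact absurd (Finset.mem_univ j) h
    rw [h1, sub_self, map_zero]
  · have h1 : φ μ = 0 := hg (Or.inl ⟨μ, hμ, rfl⟩) (Or.inr rfl) (by
      rw [AddMonoidHom.comp_apply] at h0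
      rw [h0, map_zero])
    rw [hφ] at h1
    exact sub_eq_zero.1 h1

/-- The form of a vector with small coordinates, two of which do not exceed the bound for roots. -/
theorem form_of_coords {m : ℕ} {e : Fin m → Fin r → ℤ} {N : ℤ} (hN : 0 < N)
    (b : Fin m → ((Fin r → ℤ) →+ ℤ)) {μ : Fin r → ℤ} (h0 : μ ≠ 0)
    (hμ : N • μ = ∑ i, b i μ • e i) (hdvd : ∀ i, N ∣ b i μ) (hbd : ∀ i, |b i μ| ≤ N)
    (h2 : ∀ i j, i ≠ j → ∀ s s' : Bool, b i μ = sg s * N → b j μ = sg s' * N →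
      μ = sg s • e i + sg s' • e j ∨ μ = -(sg s • e i + sg s' • e j)) :
    (∃ j s, μ = sg s • e j) ∨ ∃ i j s s', i ≠ j ∧ μ = sg s • e i + sg s' • e j := by
  have hval : ∀ i, b i μ = 0 ∨ ∃ s : Bool, b i μ = sg s * N := by
    intro i
    obtain ⟨k, hk⟩ := hdvd i
    have h3 := hbd i
    rw [hk, abs_mul, abs_of_pos hN] at h3
    have h4 : |k| ≤ 1 := by
      by_contra hlt
      push Not at hlt
      nlinarith
    have h5 : k = 0 ∨ k = 1 ∨ k = -1 := by
      have := abs_le.1 h4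
      omega
    rcases h5 with h5 | h5 | h5
    · left
      rw [hk, h5, mul_zero]
    · right
      exact ⟨true, by rw [hk, h5]; simp [sg]⟩
    · right
      exact ⟨false, by rw [hk, h5]; simp [sg]⟩
  have hneg : ∀ s : Bool, -sg s = sg (!s) := by
    intro s
    cases s <;> simp [sg]
  by_cases hex : ∃ i j, i ≠ j ∧ b i μ ≠ 0 ∧ b j μ ≠ 0
  · obtain ⟨i, j, hij, hi, hj⟩ := hex
    obtain ⟨s, hs⟩ := (hval i).resolve_left hi
    obtain ⟨s', hs'⟩ := (hval j).resolve_left hj
    right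
    rcases h2 i j hij s s' hs hs' with h | h
    · exact ⟨i, j, s, s', hij, h⟩
    · refine ⟨i, j, !s, !s', hij, ?_⟩
      rw [h, ← hneg, ← hneg, neg_smul, neg_smul, neg_add]
  · push Not at hex
    by_cases hone : ∃ i, b i μ ≠ 0
    · obtain ⟨i, hi⟩ := hone
      obtain ⟨s, hs⟩ := (hval i).resolve_left hi
      left
      refine ⟨i, s, ?_⟩
      rw [Finset.sum_eq_single i, hs, mul_comm, mul_smul] at hμ
      · have h3 : N • (μ - sg s • e i) = 0 := by rw [smul_sub, hμ, sub_self]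
        exact sub_eq_zero.1 ((smul_eq_zero.1 h3).resolve_left hN.ne')
      · intro j _ hji
        rw [hex i j (Ne.symm hji) hi, zero_smul]
      · intro h
        exact absurd (Finset.mem_univ i) h
    · push Not at hone
      exfalso
      rw [Finset.sum_eq_zero (fun i _ => by rw [hone i, zero_smul])] at hμ
      exact h0 ((smul_eq_zero.1 hμ).resolve_left hN.ne')

end gen

variable {r : ℕ} {R : Type} [CommRing R] [IsDomain R] [Algebra ℂ R]
  {𝒜 : ℕ × (Fin r → ℤ) → Submodule ℂ R} [GradedAlgebra 𝒜]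

theorem wt_ne_zero (H : Hyp 𝒜) {μ : Fin r → ℤ} (hμ : Wt 𝒜 μ) : μ ≠ 0 := by
  obtain ⟨y, hy⟩ := hμ
  exact H170.ne_zero_of_pi H hy

/-- The weights are finitely many. -/
theorem wt_finite (H : Hyp 𝒜) : {μ | Wt 𝒜 μ}.Finite := by
  have hfin : (H587.wts 𝒜).Finite := finite_weights H.hX
  refine (hfin.image2 (fun a b => a - b) hfin).subset ?_
  rintro χ ⟨y, hy⟩
  obtain ⟨h1, h2⟩ := H587.tangentWeight_mem H.hX y.nv y.fix hy
  exact ⟨y.ν + χ, h2, y.ν, h1, by
    change y.ν + χ - y.ν = χ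
    rw [add_sub_cancel_left]⟩

/-- A bound for a functional on the weights. -/
theorem exists_bd (H : Hyp 𝒜) (g : (Fin r → ℤ) →+ ℤ) :
    ∃ K : ℤ, 0 ≤ K ∧ ∀ μ, Wt 𝒜 μ → |g μ| ≤ K := by
  obtain ⟨K, hK0, hK⟩ := H587.exists_bound (finite_weights H.hX) g
  refine ⟨K, hK0, fun μ hμ => ?_⟩
  obtain ⟨y, hy⟩ := hμ
  obtain ⟨h1, h2⟩ := H587.tangentWeight_mem H.hX y.nv y.fix hy
  have h3 := hK _ h2 _ h1
  rwa [add_sub_cancel_left] at h3

end Vale.Agent.P280.N.H448
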