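import Vale.Agent.P280.H900.Mon
import Vale.Agent.P280.N.A05
import Vale.Agent.P280.H674.Nak

/-! P280, stage 2: the polar parts at a wall point, as linear conditions. -/

open DirectSum Vale.Agent.P280.T Vale.Agent.P280.H127 Vale.Agent.P280.N

namespace Vale.Agent.P280.H448

variable {r : ℕ} {R : Type} [CommRing R] [IsDomain R] [Algebra ℂ R]
variable {𝒜 : ℕ × (Fin r → ℤ) → Submodule ℂ R} [GradedAlgebra 𝒜]

/-- Rational functions which are divisible by `z` in the local ring at `q`. -/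
def zS (q : R →ₐ[ℂ] ℂ) (z : R) : Submodule ℂ (FractionRing R) where
  carrier := {x | ∃ x', Rg q x' ∧ x = iK z * x'}
  add_mem' := by
    rintro x x1 ⟨x', h1, rfl⟩ ⟨x1', h2, rfl⟩
    exact ⟨x' + x1', h1.add h2, by ring⟩
  zero_mem' := ⟨0, Rg.zero, by rw [mul_zero]⟩
  smul_mem' := by
    rintro c x ⟨x', h1, rfl⟩
    exact ⟨c • x', h1.smul c, by rw [mul_smul_comm]⟩

theorem mem_zS {q : R →ₐ[ℂ] ℂ} {z : R} {x : FractionRing R} :
    x ∈ zS q z ↔ ∃ x', Rg q x' ∧ x = iK z * x' := Iff.rfl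

/-- A field is regular if its values on the coordinates and on one section are. -/
theorem rgV_of_coords (H : Hyp 𝒜) (y : FP 𝒜) {f : R} (hf : f ∈ 𝒜 (1, y.ν)) (hf1 : y.q f = 1)
    {n : ℕ} {χ : Fin n → Fin r → ℤ} (hχ : ∀ ψ, y.Pi ψ → ∃ i, χ i = ψ) {du : Fin n → ℕ}
    {u : Fin n → R} (hu : ∀ i, Crd y (χ i) (du i) (u i)) {mu : Fin r → ℤ} {v : VF R}
    (hv : HV 𝒜 mu v) (h0 : Rg y.q (v (iK f))) (h : ∀ i, Rg y.q (v (iK (u i)))) :
    RgV y.q v := by
  classical
  have := noeth H.hX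
  obtain ⟨N, γ, g, D, hg, hg0, hD, -⟩ := H900.exists_den H.hX hv
  let w : Fin (n + 1) → R := Fin.cons (f - 1) u
  have hrange : Ideal.span (Set.range u) ⊔ Ideal.span {f - 1} ≤ Ideal.span (Set.range w) := by
    refine sup_le (Ideal.span_le.2 ?_) (Ideal.span_le.2 ?_)
    · rintro _ ⟨i, rfl⟩
      exact Ideal.subset_span ⟨i.succ, Fin.cons_succ _ _ _⟩
    · rintro _ rfl
      exact Ideal.subset_span ⟨0, Fin.cons_zero _ _⟩
  have hkey := A05.coords_key H y hf hf1 hχ hu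
  obtain ⟨s, hs, hs'⟩ := H674.nak y.q (mx y.q) (Ideal.span (Set.range w)) (fun a ha =>
    ⟨1, by rw [map_one]; exact one_ne_zero, by
      rw [one_mul]
      exact (sup_le_sup_right hrange _) (hkey ha)⟩)
  have hw0 : ∀ j, y.q (w j) = 0 := by
    intro j
    refine Fin.cases ?_ (fun i => ?_) j
    · show y.q (f - 1) = 0
      rw [map_sub, hf1, map_one, sub_self]
    · show y.q (u i) = 0
      exact (hu i).2.1
  have hwr : ∀ j, Rg y.q (v (iK (w j))) := by
    intro j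
    refine Fin.cases ?_ (fun i => ?_) j
    · show Rg y.q (v (iK (f - 1)))
      rw [iK_sub, iK_one, map_sub, Derivation.map_one_eq_zero, sub_zero]
      exact h0
    · exact h i
  have hdiv : ∀ j, ∃ t, y.q t = 1 ∧ g ∣ t * D (w j) := by
    intro j
    obtain ⟨a, t, ht, e⟩ := hwr j
    refine ⟨(y.q t)⁻¹ • t, by rw [map_smul, smul_eq_mul, inv_mul_cancel₀ ht],
      ⟨(y.q t)⁻¹ • a, ?_⟩⟩
    apply iK_inj
    rw [iK_mul, iK_smul, hD, iK_mul, iK_smul, smul_mul_assoc, mul_smul_comm, ← e]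
    congr 1
    ring
  choose t ht ht' using hdiv
  obtain ⟨r', hr1, hr'⟩ := nakayama_step D.toLinearMap (fun a b => D.leibniz a b) hs hs' hw0
    (t := ∏ i, t i) (u0 := g) (by rw [map_prod]; exact Finset.prod_eq_one (fun i _ => ht i))
    (by
      intro i
      rw [← Finset.mul_prod_erase Finset.univ t (Finset.mem_univ i), mul_comm (t i), mul_assoc]
      exact dvd_mul_of_dvd_right (ht' i) _)
  intro x
  obtain ⟨a, ha⟩ := hr' x
  refine ⟨a, r', by rw [hr1]; exact one_ne_zero, ?_⟩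
  apply mul_left_cancel₀ (iK_ne_zero hg0)
  have h2 : r' * D x = g * a := ha
  rw [← iK_mul, ← h2, iK_mul, hD]
  ring

/-- The monomials. -/
noncomputable def mono (f : R) (du : (Fin r → ℤ) → ℕ) (u : (Fin r → ℤ) → R) (d : ℤ)
    (L : List (Fin r → ℤ)) : FractionRing R :=
  (iK f) ^ (d - ((L.map du).sum : ℕ)) * (L.map fun ψ => iK (u ψ)).prod

omit [Algebra ℂ R] in
theorem mono_cons {f : R} (du : (Fin r → ℤ) → ℕ) (u : (Fin r → ℤ) → R) (d : ℤ)
    (ψ : Fin r → ℤ) (L : List (Fin r → ℤ)) :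
    iK (u ψ) * mono f du u (d - du ψ) L = mono f du u d (ψ :: L) := by
  unfold mono
  rw [List.map_cons, List.map_cons, List.sum_cons, List.prod_cons, Nat.cast_add, sub_sub]
  ring

omit [Algebra ℂ R] in
theorem mono_perm {f : R} {du : (Fin r → ℤ) → ℕ} {u : (Fin r → ℤ) → R} {d : ℤ}
    {L L' : List (Fin r → ℤ)} (h : L.Perm L') : mono f du u d L = mono f du u d L' := by
  unfold mono
  rw [(h.map du).sum_eq, (h.map fun ψ => iK (u ψ)).prod_eq]

theorem hk_zpow {ν : Fin r → ℤ} {x : FractionRing R} (hx : HK 𝒜 1 ν x) (h0 : x ≠ 0) (d : ℤ) :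
    HK 𝒜 d (d • ν) (x ^ d) := by
  have hn : ∀ n : ℕ, HK 𝒜 (n : ℤ) ((n : ℤ) • ν) (x ^ n) := by
    intro n
    induction n with
    | zero => simpa using HK.one (𝒜 := 𝒜)
    | succ n ih =>
      rw [pow_succ]
      exact (ih.mul hx).cast (by push_cast; ring) (by push_cast; rw [add_smul, one_smul])
  rcases Int.eq_nat_or_neg d with ⟨n, rfl | rfl⟩
  · rw [zpow_natCast]
    exact hn n
  · rw [zpow_neg, zpow_natCast, neg_smul]
    exact (hn n).inv (pow_ne_zero _ h0)

theorem val_zpow {q : R →ₐ[ℂ] ℂ} {x : FractionRing R} (hx : Val q x 1) (d : ℤ) :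
    Val q (x ^ d) 1 := by
  rcases Int.eq_nat_or_neg d with ⟨n, rfl | rfl⟩
  · rw [zpow_natCast]
    simpa using hx.pow n
  · rw [zpow_neg, zpow_natCast]
    simpa using (hx.pow n).inv (by simp)

/-- Homogeneous regular functions modulo `z`: combinations of monomials. -/
theorem span_mod (H : Hyp 𝒜) (y : FP 𝒜) (c : (Fin r → ℤ) →+ ℤ) {b : Fin r → ℤ}
    (hc : ∀ ψ, y.Pi ψ → ψ ≠ -b → 0 < c ψ) {dz : ℕ} {z : R} (hz : Crd y (-b) dz z) {f : R}
    (hf : f ∈ 𝒜 (1, y.ν)) (hf1 : y.q f = 1) {du : (Fin r → ℤ) → ℕ} {u : (Fin r → ℤ) → R}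
    (hu : ∀ ψ, y.Pi ψ → Crd y ψ (du ψ) (u ψ)) (huz : u (-b) = z) :
    ∀ (n : ℕ) (d : ℤ) (m : Fin r → ℤ) (x : FractionRing R), (c m - d * c y.ν).toNat ≤ n →
      HK 𝒜 d m x → Rg y.q x →
      x ∈ Submodule.span ℂ {e | ∃ L : List (Fin r → ℤ), (∀ ψ ∈ L, y.Pi ψ ∧ ψ ≠ -b) ∧
        m = d • y.ν + L.sum ∧ e = mono f du u d L} ⊔ zS y.q z := by
  have hf0 : iK f ≠ 0 := iK_ne_zero (ne_zero_of_q (q := y.q) (by rw [hf1]; exact one_ne_zero))
  have hA : ∀ (d : ℤ) (m : Fin r → ℤ) (x : FractionRing R), c m < d * c y.ν →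
      HK 𝒜 d m x → Rg y.q x → x ∈ zS y.q z := by
    intro d m x hm hx hr
    obtain ⟨x', h1, h2⟩ := lf2 H y c (fun ψ h1 h2 => (hc ψ h1 h2).le) hz hx hr hm
    exact ⟨x', h1, h2⟩
  have hB : ∀ (d : ℤ) (m : Fin r → ℤ) (x : FractionRing R), c m = d * c y.ν →
      HK 𝒜 d m x → Rg y.q x →
      x ∈ Submodule.span ℂ {e | ∃ L : List (Fin r → ℤ), (∀ ψ ∈ L, y.Pi ψ ∧ ψ ≠ -b) ∧
        m = d • y.ν + L.sum ∧ e = mono f du u d L} ⊔ zS y.q z := by
    intro d m x hm hx hr
    by_cases hmd : m = d • y.ν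
    · obtain ⟨v0, hv0⟩ := hr.val
      have h1 : HK 𝒜 d m ((iK f) ^ d) := by
        rw [hmd]
        exact hk_zpow (HK.ofR hf) hf0 d
      have h2 : Val y.q ((iK f) ^ d) 1 := val_zpow (by rw [← hf1]; exact Val.iK f) d
      have h3 : Val y.q (x - v0 • (iK f) ^ d) 0 := by
        have := hv0.sub (h2.smul v0)
        simpa using this
      obtain ⟨x', h4, h5⟩ := lf2' H y c hc hz (hx.sub (h1.smul v0)) h3.rg hm h3
      have h6 : x = v0 • (iK f) ^ d + iK z * x' := by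
        rw [← h5]
        ring
      rw [h6]
      refine Submodule.add_mem_sup (Submodule.smul_mem _ _ (Submodule.subset_span
        ⟨[], by simp, by simpa using hmd, ?_⟩)) ⟨x', h4, rfl⟩
      simp [mono]
    · obtain ⟨x', h4, h5⟩ := lf2' H y c hc hz hx hr hm (val_zero y hx hr hmd)
      exact Submodule.mem_sup_right ⟨x', h4, h5⟩
  intro n
  induction n with
  | zero =>
    intro d m x hn hx hr
    rcases lt_trichotomy (c m) (d * c y.ν) with hm | hm | hm
    · exact Submodule.mem_sup_right (hA d m x hm hx hr)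
    · exact hB d m x hm hx hr
    · omega
  | succ n ih =>
    intro d m x hn hx hr
    rcases lt_trichotomy (c m) (d * c y.ν) with hm | hm | hm
    · exact Submodule.mem_sup_right (hA d m x hm hx hr)
    · exact hB d m x hm hx hr
    have hmd : m ≠ d • y.ν := by
      rintro rfl
      rw [map_zsmul, smul_eq_mul] at hm
      exact lt_irrefl _ hm
    obtain ⟨k, χ, hinj, hPi, hex, hco⟩ := coords H y
    obtain ⟨x', hx', e⟩ := hco (fun i => du (χ i)) (fun i => u (χ i))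
      (fun i => hu _ ((hPi _).2 ⟨i, rfl⟩)) d m x hx (val_zero y hx hr hmd)
    rw [e]
    refine Submodule.sum_mem _ fun i _ => ?_
    have hpi : y.Pi (χ i) := (hPi _).2 ⟨i, rfl⟩
    by_cases hi : χ i = -b
    · refine Submodule.mem_sup_right ⟨x' i, (hx' i).1, ?_⟩
      rw [hi, huz]
    · have hci := hc _ hpi hi
      have h1 := ih (d - du (χ i)) (m - (du (χ i) • y.ν + χ i)) (x' i) (by
        rw [map_sub, map_add, map_nsmul, nsmul_eq_mul, sub_mul]
        omega) (hx' i).2 (hx' i).1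
      obtain ⟨a, ha, b', hb', hab⟩ := Submodule.mem_sup.1 h1
      rw [← hab, mul_add]
      refine Submodule.add_mem _ (Submodule.mem_sup_left ?_) (Submodule.mem_sup_right ?_)
      · have h2 : Submodule.map (LinearMap.mulLeft ℂ (iK (u (χ i))))
            (Submodule.span ℂ {e | ∃ L : List (Fin r → ℤ), (∀ ψ ∈ L, y.Pi ψ ∧ ψ ≠ -b) ∧
              m - (du (χ i) • y.ν + χ i) = (d - du (χ i)) • y.ν + L.sum ∧
              e = mono f du u (d - du (χ i)) L}) ≤
            Submodule.span ℂ {e | ∃ L : List (Fin r → ℤ), (∀ ψ ∈ L, y.Pi ψ ∧ ψ ≠ -b) ∧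
              m = d • y.ν + L.sum ∧ e = mono f du u d L} := by
          rw [Submodule.map_span_le]
          rintro _ ⟨L, hL, h3, rfl⟩
          refine Submodule.subset_span ⟨χ i :: L, ?_, ?_, ?_⟩
          · intro ψ hψ
            rcases List.mem_cons.1 hψ with rfl | hψ
            · exact ⟨hpi, hi⟩
            · exact hL ψ hψ
          · rw [List.sum_cons]
            have h4 : m = (d - (du (χ i) : ℤ)) • y.ν + L.sum + (du (χ i) • y.ν + χ i) := by
              rw [← h3]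
              abel
            rw [h4, sub_smul, natCast_zsmul]
            abel
          · rw [LinearMap.mulLeft_apply, mono_cons]
        exact h2 (Submodule.mem_map_of_mem ha)
      · obtain ⟨x2, h5, rfl⟩ := hb'
        exact ⟨iK (u (χ i)) * x2, (Rg.iK _).mul h5, by ring⟩

/-- **The polar part at a wall point as linear conditions**: `k` monomials, `k` conditions. -/
theorem polar_map (H : Hyp 𝒜) (y : FP 𝒜) (c : (Fin r → ℤ) →+ ℤ) {b : Fin r → ℤ}
    (hc : ∀ ψ, y.Pi ψ → ψ ≠ -b → 0 < c ψ) (hcb : 0 < c b) {dz : ℕ} {z : R}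
    (hz : Crd y (-b) dz z) {mu : Fin r → ℤ} {k : ℕ} (P : Fin k → Fin r → ℤ)
    (M : Fin k → List (Fin r → ℤ))
    (hsol : ∀ (l : ℕ) (psi : Fin r → ℤ) (L : List (Fin r → ℤ)), 1 ≤ l →
      (psi = 0 ∨ y.Pi psi) → (∀ ψ ∈ L, y.Pi ψ ∧ ψ ≠ -b) → psi = mu + l • b + L.sum →
      l = 1 ∧ ∃ i, psi = P i ∧ L.Perm (M i))
    (V : Submodule ℂ (VF R))
    (hV : ∀ v ∈ V, HV 𝒜 mu v ∧ ∃ n : ℕ, RgV y.q ((iK z) ^ n • v)) :
    ∃ Φ : V →ₗ[ℂ] (Fin k → ℂ), ∀ v, Φ v = 0 → RgV y.q v.1 := by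
  classical
  obtain ⟨f, hf, hf1⟩ : ∃ f ∈ 𝒜 (1, y.ν), y.q f = 1 := by
    obtain ⟨f0, hf0, hf00⟩ := exists_deg_one_ne H.hX.gen y.nv y.fix
    exact ⟨(y.q f0)⁻¹ • f0, Submodule.smul_mem _ _ hf0, by
      rw [map_smul, smul_eq_mul, inv_mul_cancel₀ hf00]⟩
  have hf0 : iK f ≠ 0 := iK_ne_zero (ne_zero_of_q (q := y.q) (by rw [hf1]; exact one_ne_zero))
  have hfv : Val y.q (iK f) 1 := by
    rw [← hf1]
    exact Val.iK f
  have hz0 : iK z ≠ 0 := by
    refine iK_ne_zero ?_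
    rintro rfl
    obtain ⟨-, -, t, -, -, h⟩ := hz
    exact h (map_zero t)
  -- a system of coordinates
  have hex : ∀ ψ, ∃ (d : ℕ) (w : R), (y.Pi ψ → Crd y ψ d w) ∧ (ψ = -b → w = z) := by
    intro ψ
    by_cases h1 : ψ = -b
    · exact ⟨dz, z, fun _ => by rw [h1]; exact hz, fun _ => rfl⟩
    · by_cases h2 : y.Pi ψ
      · obtain ⟨n, χ, -, hPi, hcr, -⟩ := coords H y
        obtain ⟨i, rfl⟩ := (hPi ψ).1 h2
        obtain ⟨d, w, hw⟩ := hcr i
        exact ⟨d, w, fun _ => hw, fun h => absurd h h1⟩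
      · exact ⟨0, 0, fun h => absurd h h2, fun h => absurd h h1⟩
  choose du u hu huz using hex
  -- the uniformizer
  set ζ : FractionRing R := iK z * (iK f) ^ (-(dz : ℤ)) with hζ
  have hζh : HK 𝒜 0 (-b) ζ := by
    refine ((HK.ofR hz.1).mul (hk_zpow (HK.ofR hf) hf0 (-(dz : ℤ)))).cast (by ring) ?_
    rw [neg_smul, natCast_zsmul]
    abel
  have hζr : Rg y.q ζ := (Rg.iK z).mul (val_zpow hfv _).rg
  have hreg : ∀ v ∈ V, HV 𝒜 (mu + b) (ζ • v) ∧ RgV y.q (ζ • v) := by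
    intro v hv
    obtain ⟨h1, n, h2⟩ := hV v hv
    have h3 : HV 𝒜 (mu + b) (ζ • v) := (HV.smul hζh h1).cast (by abel)
    refine ⟨h3, ?_⟩
    have h4 : RM y.q (Set.range (fun i : Fin 0 => (i.elim0 : VF R))) ((iK z) ^ n • ζ • v) := by
      have h5 : RgV y.q ((iK z) ^ n • ζ • v) := by
        rw [smul_comm]
        exact RgV.smul hζr h2
      exact h5.rm
    have h6 := H900.lemmaM H y (w := fun i : Fin 0 => (i.elim0 : VF R))
      (χ := fun i : Fin 0 => (i.elim0 : Fin r → ℤ))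
      ⟨fun i => i.elim0, fun i => i.elim0, fun i => i.elim0, fun i => i.elim0,
        fun i => i.elim0⟩ c hz (fun ψ h7 h8 => (hc ψ h7 h8).le) hcb (lam := mu + b) (by
        intro l ψ L hl hψ hL he
        have h7 := (hsol (l + 1) ψ L (by omega) (by
          rcases hψ with h | h
          · exact Or.inl h
          · exact Or.inr h.1) hL (by rw [he, succ_nsmul]; abel)).1
        omega) h3 n h4
    have h7 : Set.range (fun i : Fin 0 => (i.elim0 : VF R)) = ∅ := Set.range_eq_empty _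
    rw [h7] at h6
    exact rm_empty.1 h6
  -- the test functions
  let g : (Fin r → ℤ) → R := fun ψ => if ψ = 0 then f else if y.Pi ψ then u ψ else 0
  let dg : (Fin r → ℤ) → ℕ := fun ψ => if ψ = 0 then 1 else du ψ
  let T : V →ₗ[ℂ] ((Fin r → ℤ) → FractionRing R ⧸ zS y.q z) :=
    { toFun := fun v ψ => (zS y.q z).mkQ (ζ * v.1 (iK (g ψ)))
      map_add' := by
        intro v w
        funext ψ
        rw [Pi.add_apply, ← map_add, Submodule.coe_add, Derivation.add_apply, mul_add]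
      map_smul' := by
        intro a v
        funext ψ
        rw [Pi.smul_apply, RingHom.id_apply, ← map_smul, Submodule.coe_smul,
          Derivation.smul_apply, mul_smul_comm] }
  have hT : ∀ (v : V) ψ, T v ψ = (zS y.q z).mkQ (ζ * v.1 (iK (g ψ))) := fun v ψ => rfl
  let E : Fin k → (Fin r → ℤ) → FractionRing R ⧸ zS y.q z := fun i ψ =>
    if P i = ψ then (zS y.q z).mkQ (mono f du u (dg ψ) (M i)) else 0
  -- the values of `T`
  have hval : ∀ (v : V) ψ, T v ψ ∈ Submodule.span ℂ (Set.range fun i => E i ψ) := by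
    intro v ψ
    have hgen : ∀ (d : ℕ) (h : R), h ∈ 𝒜 (d, d • y.ν + ψ) → d = dg ψ → (ψ = 0 ∨ y.Pi ψ) →
        (zS y.q z).mkQ (ζ * v.1 (iK h)) ∈ Submodule.span ℂ (Set.range fun i => E i ψ) := by
      intro d h hh hd hψ
      obtain ⟨h1, h2⟩ := hreg v.1 v.2
      have h3 : HK 𝒜 d (d • y.ν + ψ - (mu + b)) (ζ * v.1 (iK h)) := h1 _ _ _ hh
      have h4 := span_mod H y c hc hz hf hf1 hu (huz _ rfl) _ _ _ _ le_rfl h3 (h2 h)
      obtain ⟨a, ha, b', hb', hab⟩ := Submodule.mem_sup.1 h4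
      rw [← hab, map_add]
      have h5 : (zS y.q z).mkQ b' = 0 := (Submodule.Quotient.mk_eq_zero _).2 hb'
      rw [h5, add_zero]
      have h6 : Submodule.map (zS y.q z).mkQ (Submodule.span ℂ {e | ∃ L : List (Fin r → ℤ),
          (∀ ψ ∈ L, y.Pi ψ ∧ ψ ≠ -b) ∧ d • y.ν + ψ - (mu + b) = (d : ℤ) • y.ν + L.sum ∧
          e = mono f du u d L}) ≤ Submodule.span ℂ (Set.range fun i => E i ψ) := by
        rw [Submodule.map_span_le]
        rintro _ ⟨L, hL, h7, rfl⟩
        obtain ⟨-, i, hi, hp⟩ := hsol 1 ψ L le_rfl hψ hL (by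
          rw [natCast_zsmul] at h7
          have h8 : ψ = (d • y.ν + ψ - (mu + b)) - d • y.ν + (mu + b) := by abel
          rw [h8, h7, one_nsmul]
          abel)
        refine Submodule.subset_span ⟨i, ?_⟩
        show (if P i = ψ then _ else _) = _
        rw [if_pos hi.symm, mono_perm hp, hd]
      exact h6 (Submodule.mem_map_of_mem ha)
    rw [hT]
    by_cases h0 : ψ = 0
    · have h1 : g ψ = f := if_pos h0
      rw [h1]
      refine hgen 1 f ?_ (if_pos h0).symm (Or.inl h0)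
      rw [h0, one_smul, add_zero]
      exact hf
    · by_cases h1 : y.Pi ψ
      · have h2 : g ψ = u ψ := by
          show (if ψ = 0 then f else if y.Pi ψ then u ψ else 0) = _
          rw [if_neg h0, if_pos h1]
        rw [h2]
        exact hgen (du ψ) (u ψ) (hu ψ h1).1 (if_neg h0).symm (Or.inr h1)
      · have h2 : g ψ = 0 := by
          show (if ψ = 0 then f else if y.Pi ψ then u ψ else 0) = _
          rw [if_neg h0, if_neg h1]
        rw [h2, iK_zero, map_zero, mul_zero, map_zero]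
        exact Submodule.zero_mem _
  have hrange : ∀ v : V, T v ∈ LinearMap.range (Fintype.linearCombination ℂ E) := by
    intro v
    have h1 : ∀ ψ, ∃ a : Fin k → ℂ, ∑ i, a i • E i ψ = T v ψ := fun ψ =>
      (Submodule.mem_span_range_iff_exists_fun ℂ).1 (hval v ψ)
    choose a ha using h1
    refine ⟨fun i => a (P i) i, ?_⟩
    funext ψ
    rw [Fintype.linearCombination_apply, Finset.sum_apply, ← ha ψ]
    refine Finset.sum_congr rfl fun i _ => ?_
    rw [Pi.smul_apply]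
    by_cases h2 : P i = ψ
    · rw [h2]
    · have h3 : E i ψ = 0 := if_neg h2
      rw [h3, smul_zero, smul_zero]
  obtain ⟨s, hs⟩ := LinearMap.exists_rightInverse_of_surjective
    (Fintype.linearCombination ℂ E).rangeRestrict
    (LinearMap.range_rangeRestrict (Fintype.linearCombination ℂ E))
  refine ⟨s ∘ₗ T.codRestrict _ hrange, fun v hv => ?_⟩
  have hTv : T v = 0 := by
    have h1 := congrArg (fun φ => φ (T.codRestrict _ hrange v)) hs
    simp only [LinearMap.comp_apply, LinearMap.id_apply] at h1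
    rw [LinearMap.comp_apply] at hv
    rw [hv, map_zero] at h1
    have h2 := congrArg Subtype.val h1
    rw [LinearMap.codRestrict_apply] at h2
    exact h2.symm
  have hreg2 : ∀ ψ, Rg y.q (v.1 (iK (g ψ))) := by
    intro ψ
    have h1 := congrFun hTv ψ
    rw [hT] at h1
    obtain ⟨x', hx', h2⟩ := (Submodule.Quotient.mk_eq_zero _).1 h1
    have h3 : v.1 (iK (g ψ)) = (iK f) ^ (dz : ℤ) * x' := by
      rw [hζ, mul_assoc] at h2
      have h4 := mul_left_cancel₀ hz0 h2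
      rw [← h4, ← mul_assoc, ← zpow_add₀ hf0, add_neg_cancel, zpow_zero, one_mul]
    rw [h3]
    exact (val_zpow hfv _).rg.mul hx'
  obtain ⟨n, χ, -, hPi, -, -⟩ := coords H y
  have hne : ∀ i, χ i ≠ 0 := fun i => H170.ne_zero_of_pi H ((hPi _).2 ⟨i, rfl⟩)
  refine rgV_of_coords H y hf hf1 (χ := χ) (fun ψ hψ => (hPi ψ).1 hψ)
    (du := fun i => du (χ i)) (u := fun i => u (χ i)) (fun i => hu _ ((hPi _).2 ⟨i, rfl⟩))
    (hV v.1 v.2).1 ?_ fun i => ?_
  · have h1 := hreg2 0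
    have h2 : g 0 = f := if_pos rfl
    rwa [h2] at h1
  · have h1 := hreg2 (χ i)
    have h2 : g (χ i) = u (χ i) := by
      show (if χ i = 0 then f else if y.Pi (χ i) then u (χ i) else 0) = _
      rw [if_neg (hne i), if_pos ((hPi _).2 ⟨i, rfl⟩)]
    rwa [h2] at h1

end Vale.Agent.P280.H448
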