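import Vale.Agent.P280.H448.Polar

/-! P280, stage 2: the polar parts of functions; the case of one monomial. -/

open DirectSum Vale.Agent.P280.T Vale.Agent.P280.H127 Vale.Agent.P280.N

namespace Vale.Agent.P280.H448

variable {r : ℕ} {R : Type} [CommRing R] [IsDomain R] [Algebra ℂ R]
variable {𝒜 : ℕ × (Fin r → ℤ) → Submodule ℂ R} [GradedAlgebra 𝒜]

/-- The image of a linear map in the span of `k` vectors: `k` conditions. -/
theorem exists_conditions {V W : Type*} [AddCommGroup V] [Module ℂ V] [AddCommGroup W]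
    [Module ℂ W] {k : ℕ} (E : Fin k → W) (T : V →ₗ[ℂ] W)
    (h : ∀ v, T v ∈ Submodule.span ℂ (Set.range E)) :
    ∃ Φ : V →ₗ[ℂ] (Fin k → ℂ), ∀ v, Φ v = 0 → T v = 0 := by
  have hrange : ∀ v, T v ∈ LinearMap.range (Fintype.linearCombination ℂ E) := by
    intro v
    rw [Fintype.range_linearCombination]
    exact h v
  obtain ⟨s, hs⟩ := LinearMap.exists_rightInverse_of_surjective
    (Fintype.linearCombination ℂ E).rangeRestrict
    (LinearMap.range_rangeRestrict (Fintype.linearCombination ℂ E))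
  refine ⟨s ∘ₗ T.codRestrict _ hrange, fun v hv => ?_⟩
  have h1 := congrArg (fun φ => φ (T.codRestrict _ hrange v)) hs
  simp only [LinearMap.comp_apply, LinearMap.id_apply] at h1
  rw [LinearMap.comp_apply] at hv
  rw [hv, map_zero] at h1
  have h2 := congrArg Subtype.val h1
  rw [LinearMap.codRestrict_apply] at h2
  exact h2.symm

/-- **The polar parts of functions at a wall point**: `k` monomials, `k` conditions. -/
theorem polar_map_fun (H : Hyp 𝒜) (y : FP 𝒜) (c : (Fin r → ℤ) →+ ℤ) {b : Fin r → ℤ}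
    (hc : ∀ ψ, y.Pi ψ → ψ ≠ -b → 0 < c ψ) {dz : ℕ} {z : R}
    (hz : Crd y (-b) dz z) {d : ℤ} {m : Fin r → ℤ} {k : ℕ}
    (M : Fin k → List (Fin r → ℤ))
    (hsol : ∀ (l : ℕ) (L : List (Fin r → ℤ)), 1 ≤ l →
      (∀ ψ ∈ L, y.Pi ψ ∧ ψ ≠ -b) → m = d • y.ν + l • b + L.sum → l = 1 ∧ ∃ i, L.Perm (M i))
    (V : Submodule ℂ (FractionRing R))
    (hV : ∀ x ∈ V, HK 𝒜 d m x ∧ ∃ n : ℕ, Rg y.q ((iK z) ^ n * x)) :
    ∃ Φ : V →ₗ[ℂ] (Fin k → ℂ), ∀ x, Φ x = 0 → Rg y.q x.1 := by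
  classical
  obtain ⟨f, hf, hf1⟩ : ∃ f ∈ 𝒜 (1, y.ν), y.q f = 1 := by
    obtain ⟨f0, hf0, hf00⟩ := exists_deg_one_ne H.hX.gen y.nv y.fix
    exact ⟨(y.q f0)⁻¹ • f0, Submodule.smul_mem _ _ hf0, by
      rw [map_smul, smul_eq_mul, inv_mul_cancel₀ hf00]⟩
  have hf0 : iK f ≠ 0 := iK_ne_zero (ne_zero_of_q (q := y.q) (by rw [hf1]; exact one_ne_zero))
  have hfv : Val y.q (iK f) 1 := by
    rw [← hf1]
    exact Val.iK f
  have hz0 : iK z ≠ 0 := by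
    refine iK_ne_zero ?_
    rintro rfl
    obtain ⟨-, -, t, -, -, h⟩ := hz
    exact h (map_zero t)
  have hex : ∀ ψ, ∃ (d : ℕ) (w : R), (y.Pi ψ → Crd y ψ d w) ∧ (ψ = -b → w = z) := by
    intro ψ
    by_cases h1 : ψ = -b
    · exact ⟨dz, z, fun _ => by rw [h1]; exact hz, fun _ => rfl⟩
    · by_cases h2 : y.Pi ψ
      · obtain ⟨n, χ, -, hPi, hcr, -⟩ := coords H y
        obtain ⟨i, rfl⟩ := (hPi ψ).1 h2
        obtain ⟨d, w, hw⟩ := hcr i
        exact ⟨d, w, fun _ => hw, fun h => absurd h h1⟩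
      · exact ⟨0, 0, fun h => absurd h h2, fun h => absurd h h1⟩
  choose du u hu huz using hex
  set ζ : FractionRing R := iK z * (iK f) ^ (-(dz : ℤ)) with hζ
  have hζh : HK 𝒜 0 (-b) ζ := by
    refine ((HK.ofR hz.1).mul (hk_zpow (HK.ofR hf) hf0 (-(dz : ℤ)))).cast (by ring) ?_
    rw [neg_smul, natCast_zsmul]
    abel
  have hζr : Rg y.q ζ := (Rg.iK z).mul (val_zpow hfv _).rg
  have hreg : ∀ x ∈ V, HK 𝒜 d (m - b) (ζ * x) ∧ Rg y.q (ζ * x) := by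
    intro x hx
    obtain ⟨h1, n, h2⟩ := hV x hx
    have h3 : HK 𝒜 d (m - b) (ζ * x) := (hζh.mul h1).cast (by ring) (by abel)
    refine ⟨h3, ?_⟩
    by_contra hn
    obtain ⟨l, L, hl, hL, he⟩ := H900.xmon H y hz h3 (k := n) (by
      rw [← mul_assoc, mul_comm ((iK z) ^ n) ζ, mul_assoc]
      exact hζr.mul h2) hn
    have h4 := (hsol (l + 1) L (by omega) hL (by
      have h5 : m = (m - b) + b := by abel
      rw [h5, he, succ_nsmul]
      abel)).1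
    omega
  let T : V →ₗ[ℂ] FractionRing R ⧸ zS y.q z :=
    (zS y.q z).mkQ ∘ₗ (LinearMap.mulLeft ℂ ζ) ∘ₗ V.subtype
  have hT : ∀ x : V, T x = (zS y.q z).mkQ (ζ * x.1) := fun x => rfl
  obtain ⟨Φ, hΦ⟩ := exists_conditions (fun i => (zS y.q z).mkQ (mono f du u d (M i))) T (by
    intro x
    rw [hT]
    obtain ⟨h1, h2⟩ := hreg x.1 x.2
    have h4 := span_mod H y c hc hz hf hf1 hu (huz _ rfl) _ _ _ _ le_rfl h1 h2
    obtain ⟨a, ha, b', hb', hab⟩ := Submodule.mem_sup.1 h4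
    rw [← hab, map_add]
    have h5 : (zS y.q z).mkQ b' = 0 := (Submodule.Quotient.mk_eq_zero _).2 hb'
    rw [h5, add_zero]
    have h6 : Submodule.map (zS y.q z).mkQ (Submodule.span ℂ {e | ∃ L : List (Fin r → ℤ),
        (∀ ψ ∈ L, y.Pi ψ ∧ ψ ≠ -b) ∧ m - b = d • y.ν + L.sum ∧
        e = mono f du u d L}) ≤ Submodule.span ℂ
          (Set.range fun i => (zS y.q z).mkQ (mono f du u d (M i))) := by
      rw [Submodule.map_span_le]
      rintro _ ⟨L, hL, h7, rfl⟩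
      obtain ⟨-, i, hp⟩ := hsol 1 L le_rfl hL (by
        have h8 : m = (m - b) + b := by abel
        rw [h8, h7, one_nsmul]
        abel)
      refine Submodule.subset_span ⟨i, ?_⟩
      beta_reduce
      rw [mono_perm hp]
    exact h6 (Submodule.mem_map_of_mem ha))
  refine ⟨Φ, fun x hx => ?_⟩
  have h1 := hΦ x hx
  rw [hT] at h1
  obtain ⟨x', hx', h2⟩ := (Submodule.Quotient.mk_eq_zero _).1 h1
  have h3 : x.1 = (iK f) ^ (dz : ℤ) * x' := by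
    rw [hζ, mul_assoc] at h2
    have h4 := mul_left_cancel₀ hz0 h2
    rw [← h4, ← mul_assoc, ← zpow_add₀ hf0, add_neg_cancel, zpow_zero, one_mul]
  rw [h3]
  exact (val_zpow hfv _).rg.mul hx'

/-- One monomial: two fields with poles differ by a constant. -/
theorem polar_one_field (H : Hyp 𝒜) (y : FP 𝒜) (c : (Fin r → ℤ) →+ ℤ) {b : Fin r → ℤ}
    (hc : ∀ ψ, y.Pi ψ → ψ ≠ -b → 0 < c ψ) (hcb : 0 < c b) {dz : ℕ} {z : R}
    (hz : Crd y (-b) dz z) {mu : Fin r → ℤ} (psi0 : Fin r → ℤ) (M0 : List (Fin r → ℤ))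
    (hsol : ∀ (l : ℕ) (psi : Fin r → ℤ) (L : List (Fin r → ℤ)), 1 ≤ l →
      (psi = 0 ∨ y.Pi psi) → (∀ ψ ∈ L, y.Pi ψ ∧ ψ ≠ -b) → psi = mu + l • b + L.sum →
      l = 1 ∧ psi = psi0 ∧ L.Perm M0)
    {v v' : VF R} (hv : HV 𝒜 mu v) (hv' : HV 𝒜 mu v') {n n' : ℕ}
    (hn : RgV y.q ((iK z) ^ n • v)) (hn' : RgV y.q ((iK z) ^ n' • v')) (h : ¬ RgV y.q v') :
    ∃ α : ℂ, RgV y.q (v - α • v') := by
  classical
  have hpow : ∀ (w : VF R) (i j : ℕ), i ≤ j → RgV y.q ((iK z) ^ i • w) →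
      RgV y.q ((iK z) ^ j • w) := by
    intro w i j hij hw
    obtain ⟨k, rfl⟩ := Nat.exists_eq_add_of_le hij
    rw [add_comm, pow_add, mul_smul]
    exact RgV.smul ((Rg.iK z).pow k) hw
  let V : Submodule ℂ (VF R) := Submodule.span ℂ {v, v'}
  have hV : ∀ w ∈ V, HV 𝒜 mu w ∧ ∃ k : ℕ, RgV y.q ((iK z) ^ k • w) := by
    intro w hw
    obtain ⟨a, b', rfl⟩ := Submodule.mem_span_pair.1 hw
    refine ⟨(hv.smulC a).add (hv'.smulC b'), n + n', ?_⟩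
    rw [smul_add, smul_comm, smul_comm _ b']
    exact (RgV.smulC a (hpow v n _ (Nat.le_add_right _ _) hn)).add
      (RgV.smulC b' (hpow v' n' _ (Nat.le_add_left _ _) hn'))
  obtain ⟨Φ, hΦ⟩ := polar_map H y c hc hcb hz (k := 1) (fun _ => psi0) (fun _ => M0)
    (fun l psi L h1 h2 h3 h4 => by
      obtain ⟨h5, h6, h7⟩ := hsol l psi L h1 h2 h3 h4
      exact ⟨h5, 0, h6, h7⟩) V hV
  have hvV : v ∈ V := Submodule.subset_span (by simp)
  have hvV' : v' ∈ V := Submodule.subset_span (by simp)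
  have h0 : Φ ⟨v', hvV'⟩ 0 ≠ 0 := by
    intro h1
    apply h
    refine hΦ ⟨v', hvV'⟩ ?_
    funext i
    rw [Subsingleton.elim i 0]
    exact h1
  let a : V := ⟨v, hvV⟩
  let a' : V := ⟨v', hvV'⟩
  refine ⟨Φ a 0 / Φ a' 0, ?_⟩
  have h3 : Φ (a + (-(Φ a 0 / Φ a' 0)) • a') = Φ a + (-(Φ a 0 / Φ a' 0)) • Φ a' := by
    rw [map_add, map_smul]
  have h4 := hΦ (a + (-(Φ a 0 / Φ a' 0)) • a') (by
    rw [h3]
    funext i
    rw [Subsingleton.elim i 0]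
    show Φ a 0 + (-(Φ a 0 / Φ a' 0)) * Φ a' 0 = 0
    rw [neg_mul, div_mul_cancel₀ _ h0, add_neg_cancel])
  have h5 : v - (Φ a 0 / Φ a' 0) • v' = v + (-(Φ a 0 / Φ a' 0)) • v' := by
    refine vf_ext fun x => ?_
    rw [Derivation.sub_apply, Derivation.add_apply, Derivation.smul_apply,
      Derivation.smul_apply, neg_smul, sub_eq_add_neg]
  rw [h5]
  exact h4

/-- One monomial: two functions with poles differ by a constant. -/
theorem polar_one_fun (H : Hyp 𝒜) (y : FP 𝒜) (c : (Fin r → ℤ) →+ ℤ) {b : Fin r → ℤ}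
    (hc : ∀ ψ, y.Pi ψ → ψ ≠ -b → 0 < c ψ) {dz : ℕ} {z : R}
    (hz : Crd y (-b) dz z) {d : ℤ} {m : Fin r → ℤ} (M0 : List (Fin r → ℤ))
    (hsol : ∀ (l : ℕ) (L : List (Fin r → ℤ)), 1 ≤ l →
      (∀ ψ ∈ L, y.Pi ψ ∧ ψ ≠ -b) → m = d • y.ν + l • b + L.sum → l = 1 ∧ L.Perm M0)
    {x x' : FractionRing R} (hx : HK 𝒜 d m x) (hx' : HK 𝒜 d m x') {n n' : ℕ}
    (hn : Rg y.q ((iK z) ^ n * x)) (hn' : Rg y.q ((iK z) ^ n' * x')) (h : ¬ Rg y.q x') :
    ∃ α : ℂ, Rg y.q (x - α • x') := by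
  classical
  have hpow : ∀ (w : FractionRing R) (i j : ℕ), i ≤ j → Rg y.q ((iK z) ^ i * w) →
      Rg y.q ((iK z) ^ j * w) := by
    intro w i j hij hw
    obtain ⟨k, rfl⟩ := Nat.exists_eq_add_of_le hij
    rw [add_comm, pow_add, mul_assoc]
    exact ((Rg.iK z).pow k).mul hw
  let V : Submodule ℂ (FractionRing R) := Submodule.span ℂ {x, x'}
  have hV : ∀ w ∈ V, HK 𝒜 d m w ∧ ∃ k : ℕ, Rg y.q ((iK z) ^ k * w) := by
    intro w hw
    obtain ⟨a, b', rfl⟩ := Submodule.mem_span_pair.1 hw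
    refine ⟨(hx.smul a).add (hx'.smul b'), n + n', ?_⟩
    rw [mul_add, mul_smul_comm, mul_smul_comm]
    exact ((hpow x n _ (Nat.le_add_right _ _) hn).smul a).add
      ((hpow x' n' _ (Nat.le_add_left _ _) hn').smul b')
  obtain ⟨Φ, hΦ⟩ := polar_map_fun H y c hc hz (k := 1) (fun _ => M0)
    (fun l L h1 h3 h4 => by
      obtain ⟨h5, h7⟩ := hsol l L h1 h3 h4
      exact ⟨h5, 0, h7⟩) V hV
  have hvV : x ∈ V := Submodule.subset_span (by simp)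
  have hvV' : x' ∈ V := Submodule.subset_span (by simp)
  have h0 : Φ ⟨x', hvV'⟩ 0 ≠ 0 := by
    intro h1
    apply h
    refine hΦ ⟨x', hvV'⟩ ?_
    funext i
    rw [Subsingleton.elim i 0]
    exact h1
  let a : V := ⟨x, hvV⟩
  let a' : V := ⟨x', hvV'⟩
  refine ⟨Φ a 0 / Φ a' 0, ?_⟩
  have h3 : Φ (a - (Φ a 0 / Φ a' 0) • a') = Φ a - (Φ a 0 / Φ a' 0) • Φ a' :=
    (LinearMap.map_sub Φ _ _).trans (congrArg _ (LinearMap.map_smul Φ _ _))
  exact hΦ (a - (Φ a 0 / Φ a' 0) • a') (by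
    rw [h3]
    funext i
    rw [Subsingleton.elim i 0]
    show Φ a 0 - (Φ a 0 / Φ a' 0) * Φ a' 0 = 0
    rw [div_mul_cancel₀ _ h0, sub_self])

end Vale.Agent.P280.H448
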