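import Vale.Agent.P280.N2.Rel
import Vale.Agent.P280.N.A01

/-! P280, stage 2, block A: the two walls of the chamber `Ch2` determine their points. -/

open DirectSum Vale.Agent.P280.T Vale.Agent.P280.H127 Vale.Agent.P280.N Vale.Agent.P280.N.H989
  Vale.Agent.P280.N2

set_option linter.unusedSectionVars false

namespace Vale.Agent.P280.H448

variable {r : ℕ} {R : Type} [CommRing R] [IsDomain R] [Algebra ℂ R]
  {𝒜 : ℕ × (Fin r → ℤ) → Submodule ℂ R} [GradedAlgebra 𝒜]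

section
variable {N : ℤ} {n : ℕ} {f : Fin (n + 1) → Fin r → ℤ}
  {β : Fin (n + 1) → Fin (n + 1) → ((Fin r → ℤ) →+ ℤ)} {E F : Fin (n + 1) → Fin (n + 1) → VF R}
  {c : (Fin r → ℤ) →+ ℤ}

/-- The values of `β 0 1` on the letters. -/
theorem b01v (hA : AC 𝒜 N n f β E F) : β 0 1 (f 0) = N ∧ β 0 1 (f 1) = -N ∧
    ∀ k : Fin (n + 1), 2 ≤ (k : ℕ) → β 0 1 (f k) = 0 := by
  have hn := hA.n2
  have v1 := one_val hn
  have v0 : ((0 : Fin (n + 1)) : ℕ) = 0 := rfl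
  have n01 : (0 : Fin (n + 1)) ≠ 1 := fun h => by rw [Fin.ext_iff] at h; omega
  refine ⟨?_, ?_, ?_⟩
  · rw [hA.be 0 1 0 n01, if_pos rfl, if_neg n01, sub_zero]
  · rw [hA.be 0 1 1 n01, if_neg n01.symm, if_pos rfl, zero_sub]
  · intro k hk
    have h0 : k ≠ 0 := fun h => by rw [Fin.ext_iff] at h; omega
    have h1 : k ≠ 1 := fun h => by rw [Fin.ext_iff] at h; omega
    rw [hA.be 0 1 k n01, if_neg h0, if_neg h1, sub_zero]

theorem c01 (hA : AC 𝒜 N n f β E F) (hc : Ch2 𝒜 n f c) : 0 < c (f 1) ∧ c (f 1) < c (f 0) := by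
  have hn := hA.n2
  have v1 := one_val hn
  have v0 : ((0 : Fin (n + 1)) : ℕ) = 0 := rfl
  exact ⟨hc.pos, hc.ord 0 1 (by rw [Fin.lt_def]; omega)⟩

/-- The positive weights and `β 0 1`. -/
theorem cls1 (hA : AC 𝒜 N n f β E F) (hv : NoVec 𝒜 n f) (hc : Ch2 𝒜 n f c) {ω : Fin r → ℤ}
    (hω : Wt 𝒜 ω) (h0 : 0 < c ω) :
    ω = f 0 - f 1 ∨ β 0 1 ω = 0 ∨
      ∃ (i : Fin (n + 1)) (g : Fin r → ℤ), (i = 0 ∨ i = 1) ∧ ω = f i - g ∧
        (g = 0 ∨ (c g < 0 ∧ β 0 1 g = 0)) := by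
  have hn := hA.n2
  have v1 := one_val hn
  have v0 : ((0 : Fin (n + 1)) : ℕ) = 0 := rfl
  have vL : ((Fin.last n : Fin (n + 1)) : ℕ) = n := rfl
  obtain ⟨-, -, b2⟩ := b01v hA
  rcases cls hA hv hc hω h0 with h | h | h | h
  · exact Or.inl h.1
  · exact Or.inr (Or.inl h.2)
  · rcases h.2.2 with rfl | ⟨i, -, rfl⟩
    · right; left
      rw [map_neg, b2 _ (by omega), neg_zero]
    · by_cases hi : 2 ≤ (i : ℕ)
      · right; left
        rw [map_sub, b2 _ hi, b2 _ (by omega), sub_zero]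
      · right; right
        refine ⟨i, f (Fin.last n), ?_, rfl, Or.inr ⟨hc.neg _ (by omega), b2 _ (by omega)⟩⟩
        rw [Fin.ext_iff, Fin.ext_iff]
        omega
  · exact Or.inr (Or.inr h.2)

/-- The functional at the wall of `f 1`. -/
def cA (N : ℤ) (f : Fin (n + 1) → Fin r → ℤ)
    (β : Fin (n + 1) → Fin (n + 1) → ((Fin r → ℤ) →+ ℤ)) (c : (Fin r → ℤ) →+ ℤ) :
    (Fin r → ℤ) →+ ℤ := (2 * N) • c + (2 * c (f 1) + 1) • β 0 1

/-- The functional at the wall of `f 0 - f 1`. -/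
def cB (N : ℤ) (f : Fin (n + 1) → Fin r → ℤ)
    (β : Fin (n + 1) → Fin (n + 1) → ((Fin r → ℤ) →+ ℤ)) (c : (Fin r → ℤ) →+ ℤ) :
    (Fin r → ℤ) →+ ℤ := (2 * N) • c - (c (f 0 - f 1) + 1) • β 0 1

theorem cA_apply (μ : Fin r → ℤ) :
    cA N f β c μ = 2 * N * c μ + (2 * c (f 1) + 1) * β 0 1 μ := by
  simp only [cA, AddMonoidHom.add_apply, AddMonoidHom.coe_smul, Pi.smul_apply, smul_eq_mul]

theorem cB_apply (μ : Fin r → ℤ) :
    cB N f β c μ = 2 * N * c μ - (c (f 0 - f 1) + 1) * β 0 1 μ := by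
  simp only [cB, AddMonoidHom.sub_apply, AddMonoidHom.coe_smul, Pi.smul_apply, smul_eq_mul]

theorem cA_neg (hA : AC 𝒜 N n f β E F) : cA N f β c (f 1) < 0 := by
  obtain ⟨-, b1, -⟩ := b01v hA
  have := hA.N0
  rw [cA_apply, b1]
  linarith [show 2 * N * c (f 1) + (2 * c (f 1) + 1) * -N = -N by ring]

theorem cB_neg (hA : AC 𝒜 N n f β E F) : cB N f β c (f 0 - f 1) < 0 := by
  obtain ⟨b0, b1, -⟩ := b01v hA
  have := hA.N0
  rw [cB_apply, map_sub (β 0 1), b0, b1]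
  linarith [show 2 * N * c (f 0 - f 1) - (c (f 0 - f 1) + 1) * (N - -N) = -(2 * N) by ring]

theorem cA_pos (hA : AC 𝒜 N n f β E F) (hv : NoVec 𝒜 n f) (hc : Ch2 𝒜 n f c) {ω : Fin r → ℤ}
    (hω : Wt 𝒜 ω) (h0 : 0 < c ω) (hne : ω ≠ f 1) : 0 < cA N f β c ω := by
  obtain ⟨b0, b1, -⟩ := b01v hA
  obtain ⟨c1, c0⟩ := c01 hA hc
  have hN := hA.N0
  rw [cA_apply]
  rcases cls1 hA hv hc hω h0 with rfl | h | ⟨i, g, hi, rfl, hg⟩
  · rw [map_sub (β 0 1), b0, b1]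
    have h1 := mul_pos hN h0
    have h2 := mul_pos hN c1
    nlinarith
  · rw [h, mul_zero, add_zero]
    exact mul_pos (by omega) h0
  · have hgb : β 0 1 g = 0 := by
      rcases hg with rfl | hg
      · rw [map_zero]
      · exact hg.2
    rcases hi with rfl | rfl
    · rw [map_sub (β 0 1), b0, hgb, sub_zero]
      have h1 := mul_pos hN h0
      have h2 := mul_pos hN c1
      nlinarith
    · rcases hg with rfl | hg
      · exact absurd (sub_zero _) hne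
      · rw [map_sub (β 0 1), b1, hgb, sub_zero, map_sub c]
        have h2 : 0 < N * (-2 * c g - 1) := mul_pos hN (by omega)
        linarith [show 2 * N * (c (f 1) - c g) + (2 * c (f 1) + 1) * -N =
          N * (-2 * c g - 1) by ring]

theorem cB_pos (hA : AC 𝒜 N n f β E F) (hv : NoVec 𝒜 n f) (hc : Ch2 𝒜 n f c) {ω : Fin r → ℤ}
    (hω : Wt 𝒜 ω) (h0 : 0 < c ω) (hne : ω ≠ f 0 - f 1) : 0 < cB N f β c ω := by
  obtain ⟨b0, b1, -⟩ := b01v hA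
  obtain ⟨c1, c0⟩ := c01 hA hc
  have hN := hA.N0
  rw [cB_apply]
  rcases cls1 hA hv hc hω h0 with h | h | ⟨i, g, hi, rfl, hg⟩
  · exact absurd h hne
  · rw [h, mul_zero, sub_zero]
    exact mul_pos (by omega) h0
  · have hgb : β 0 1 g = 0 := by
      rcases hg with rfl | hg
      · rw [map_zero]
      · exact hg.2
    have hgc : c g ≤ 0 := by
      rcases hg with rfl | hg
      · rw [map_zero]
      · exact hg.1.le
    rcases hi with rfl | rfl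
    · rw [map_sub (β 0 1), b0, hgb, sub_zero, map_sub c, map_sub c]
      have h2 : 0 < N * (c (f 0) + c (f 1) - 2 * c g - 1) := mul_pos hN (by omega)
      linarith [show 2 * N * (c (f 0) - c g) - (c (f 0) - c (f 1) + 1) * N =
        N * (c (f 0) + c (f 1) - 2 * c g - 1) by ring]
    · rw [map_sub (β 0 1), b1, hgb, sub_zero, map_sub c, map_sub c]
      have h2 : 0 < N * (2 * (c (f 1) - c g) + (c (f 0) - c (f 1) + 1)) := mul_pos hN (by omega)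
      linarith [show 2 * N * (c (f 1) - c g) - (c (f 0) - c (f 1) + 1) * -N =
        N * (2 * (c (f 1) - c g) + (c (f 0) - c (f 1) + 1)) by ring]

/-- A functional which changes sign, among the positive weights, on `b` only. -/
theorem wall_unique (H : Hyp 𝒜) {c' : (Fin r → ℤ) →+ ℤ} {b : Fin r → ℤ}
    (hc : ∀ μ, Wt 𝒜 μ → c μ ≠ 0) (hb : c' b < 0)
    (hpos : ∀ ω, Wt 𝒜 ω → 0 < c ω → ω ≠ b → 0 < c' ω) {q q' : FP 𝒜}
    (hq : q.Pi (-b)) (ho : ∀ ψ, q.Pi ψ → ψ ≠ -b → 0 < c ψ)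
    (hq' : q'.Pi (-b)) (ho' : ∀ ψ, q'.Pi ψ → ψ ≠ -b → 0 < c ψ) :
    SamePoint 𝒜 q.q q'.q := by
  have key : ∀ y : FP 𝒜, y.Pi (-b) → (∀ ψ, y.Pi ψ → ψ ≠ -b → 0 < c ψ) → Pos c' y := by
    intro y hy hoy ψ hψ
    by_cases h1 : ψ = -b
    · rw [h1, map_neg]
      omega
    · refine (hpos ψ ⟨y, hψ⟩ (hoy ψ hψ h1) ?_).le
      rintro rfl
      exact H170.not_pi_neg H hψ hy
  refine pos_unique H c' (fun μ hμ => ?_) (key q hq ho) (key q' hq' ho')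
  rcases lt_or_gt_of_ne (hc μ hμ) with h | h
  · by_cases h1 : μ = -b
    · rw [h1, map_neg]
      omega
    · have h2 := hpos (-μ) (wt_neg H hμ) (by rw [map_neg]; omega)
        (fun h3 => h1 (by rw [← h3, neg_neg]))
      rw [map_neg] at h2
      omega
  · by_cases h1 : μ = b
    · rw [h1]
      omega
    · exact (hpos μ hμ h h1).ne'

theorem wall_unique1 (H : Hyp 𝒜) (hA : AC 𝒜 N n f β E F) (hv : NoVec 𝒜 n f)
    (hc : Ch2 𝒜 n f c) {q q' : FP 𝒜} (hq : q.Pi (-f 1))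
    (ho : ∀ ψ, q.Pi ψ → ψ ≠ -f 1 → 0 < c ψ) (hq' : q'.Pi (-f 1))
    (ho' : ∀ ψ, q'.Pi ψ → ψ ≠ -f 1 → 0 < c ψ) : SamePoint 𝒜 q.q q'.q :=
  wall_unique H (c' := cA N f β c) hc.ne (cA_neg hA) (fun _ h1 h2 h3 => cA_pos hA hv hc h1 h2 h3)
    hq ho hq' ho'

theorem wall_unique0 (H : Hyp 𝒜) (hA : AC 𝒜 N n f β E F) (hv : NoVec 𝒜 n f)
    (hc : Ch2 𝒜 n f c) {q q' : FP 𝒜} (hq : q.Pi (-(f 0 - f 1)))
    (ho : ∀ ψ, q.Pi ψ → ψ ≠ -(f 0 - f 1) → 0 < c ψ) (hq' : q'.Pi (-(f 0 - f 1)))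
    (ho' : ∀ ψ, q'.Pi ψ → ψ ≠ -(f 0 - f 1) → 0 < c ψ) : SamePoint 𝒜 q.q q'.q :=
  wall_unique H (c' := cB N f β c) hc.ne (cB_neg hA) (fun _ h1 h2 h3 => cB_pos hA hv hc h1 h2 h3)
    hq ho hq' ho'

end

end Vale.Agent.P280.H448
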