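import Vale.Agent.P280.H448.Wall
import Vale.Agent.P280.H399.WallPole

/-! P280, stage 2, block A: poles along the two walls of the chamber `Ch2`. -/

open DirectSum Vale.Agent.P280.T Vale.Agent.P280.H127 Vale.Agent.P280.N Vale.Agent.P280.N.H989
  Vale.Agent.P280.N2

set_option linter.unusedSectionVars false

namespace Vale.Agent.P280.H448

variable {r : ℕ} {R : Type} [CommRing R] [IsDomain R] [Algebra ℂ R]
  {𝒜 : ℕ × (Fin r → ℤ) → Submodule ℂ R} [GradedAlgebra 𝒜]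

section
variable {N : ℤ} {n : ℕ} {f : Fin (n + 1) → Fin r → ℤ}
  {β : Fin (n + 1) → Fin (n + 1) → ((Fin r → ℤ) →+ ℤ)} {E F : Fin (n + 1) → Fin (n + 1) → VF R}
  {c : (Fin r → ℤ) →+ ℤ}

/-- The functional of the wall of `f 1`. -/
def lA (N : ℤ) (f : Fin (n + 1) → Fin r → ℤ)
    (β : Fin (n + 1) → Fin (n + 1) → ((Fin r → ℤ) →+ ℤ)) (c : (Fin r → ℤ) →+ ℤ) :
    (Fin r → ℤ) →+ ℤ := N • c + c (f 1) • β 0 1

/-- The functional of the wall of `f 0 - f 1`. -/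
def lB (N : ℤ) (f : Fin (n + 1) → Fin r → ℤ)
    (β : Fin (n + 1) → Fin (n + 1) → ((Fin r → ℤ) →+ ℤ)) (c : (Fin r → ℤ) →+ ℤ) :
    (Fin r → ℤ) →+ ℤ := (2 * N) • c - c (f 0 - f 1) • β 0 1

theorem lA_apply (μ : Fin r → ℤ) : lA N f β c μ = N * c μ + c (f 1) * β 0 1 μ := by
  simp only [lA, AddMonoidHom.add_apply, AddMonoidHom.coe_smul, Pi.smul_apply, smul_eq_mul]

theorem lB_apply (μ : Fin r → ℤ) : lB N f β c μ = 2 * N * c μ - c (f 0 - f 1) * β 0 1 μ := by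
  simp only [lB, AddMonoidHom.sub_apply, AddMonoidHom.coe_smul, Pi.smul_apply, smul_eq_mul]

theorem lA_zero (hA : AC 𝒜 N n f β E F) : lA N f β c (f 1) = 0 := by
  obtain ⟨-, b1, -⟩ := b01v hA
  rw [lA_apply, b1]
  ring

theorem lB_zero (hA : AC 𝒜 N n f β E F) : lB N f β c (f 0 - f 1) = 0 := by
  obtain ⟨b0, b1, -⟩ := b01v hA
  rw [lB_apply, map_sub (β 0 1), b0, b1]
  ring

theorem lA_pos (hA : AC 𝒜 N n f β E F) (hv : NoVec 𝒜 n f) (hc : Ch2 𝒜 n f c) {ω : Fin r → ℤ}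
    (hω : Wt 𝒜 ω) (h0 : 0 < c ω) (hne : ω ≠ f 1) : 0 < lA N f β c ω := by
  obtain ⟨b0, b1, -⟩ := b01v hA
  obtain ⟨c1, c0⟩ := c01 hA hc
  have hN := hA.N0
  rw [lA_apply]
  rcases cls1 hA hv hc hω h0 with rfl | h | ⟨i, g, hi, rfl, hg⟩
  · rw [map_sub (β 0 1), b0, b1]
    have h1 := mul_pos hN h0
    have h2 := mul_pos hN c1
    nlinarith
  · rw [h, mul_zero, add_zero]
    exact mul_pos hN h0
  · have hgb : β 0 1 g = 0 := by
      rcases hg with rfl | hg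
      · rw [map_zero]
      · exact hg.2
    rcases hi with rfl | rfl
    · rw [map_sub (β 0 1), b0, hgb, sub_zero]
      have h1 := mul_pos hN h0
      have h2 := mul_pos hN c1
      nlinarith
    · rcases hg with rfl | hg
      · exact absurd (sub_zero _) hne
      · rw [map_sub (β 0 1), b1, hgb, sub_zero, map_sub c]
        have h2 : 0 < N * (-c g) := mul_pos hN (by omega)
        linarith [show N * (c (f 1) - c g) + c (f 1) * -N = N * (-c g) by ring]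

theorem lB_pos (hA : AC 𝒜 N n f β E F) (hv : NoVec 𝒜 n f) (hc : Ch2 𝒜 n f c) {ω : Fin r → ℤ}
    (hω : Wt 𝒜 ω) (h0 : 0 < c ω) (hne : ω ≠ f 0 - f 1) : 0 < lB N f β c ω := by
  obtain ⟨b0, b1, -⟩ := b01v hA
  obtain ⟨c1, c0⟩ := c01 hA hc
  have hN := hA.N0
  rw [lB_apply]
  rcases cls1 hA hv hc hω h0 with h | h | ⟨i, g, hi, rfl, hg⟩
  · exact absurd h hne
  · rw [h, mul_zero, sub_zero]
    exact mul_pos (by omega) h0
  · have hgb : β 0 1 g = 0 := by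
      rcases hg with rfl | hg
      · rw [map_zero]
      · exact hg.2
    have hgc : c g ≤ 0 := by
      rcases hg with rfl | hg
      · rw [map_zero]
      · exact hg.1.le
    rcases hi with rfl | rfl
    · rw [map_sub (β 0 1), b0, hgb, sub_zero, map_sub c, map_sub c]
      have h2 : 0 < N * (c (f 0) + c (f 1) - 2 * c g) := mul_pos hN (by omega)
      linarith [show 2 * N * (c (f 0) - c g) - (c (f 0) - c (f 1)) * N =
        N * (c (f 0) + c (f 1) - 2 * c g) by ring]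
    · rw [map_sub (β 0 1), b1, hgb, sub_zero, map_sub c, map_sub c]
      have h2 : 0 < N * (2 * (c (f 1) - c g) + (c (f 0) - c (f 1))) := mul_pos hN (by omega)
      linarith [show 2 * N * (c (f 1) - c g) - (c (f 0) - c (f 1)) * -N =
        N * (2 * (c (f 1) - c g) + (c (f 0) - c (f 1))) by ring]

/-- From the positive weights to all weights. -/
theorem signs (H : Hyp 𝒜) {l : (Fin r → ℤ) →+ ℤ} {b : Fin r → ℤ}
    (hc : ∀ μ, Wt 𝒜 μ → c μ ≠ 0) (hb : l b = 0)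
    (hpos : ∀ ω, Wt 𝒜 ω → 0 < c ω → ω ≠ b → 0 < l ω) :
    (∀ μ, Wt 𝒜 μ → (0 < l μ → 0 < c μ) ∧ (l μ < 0 → c μ < 0)) ∧
      (∀ μ, Wt 𝒜 μ → l μ = 0 → μ = b ∨ μ = -b) := by
  have key : ∀ μ, Wt 𝒜 μ → (0 < c μ → μ = b ∨ 0 < l μ) ∧ (c μ < 0 → μ = -b ∨ l μ < 0) := by
    intro μ hμ
    constructor
    · intro h
      by_cases h1 : μ = b
      · exact Or.inl h1
      · exact Or.inr (hpos μ hμ h h1)
    · intro h
      by_cases h1 : μ = -b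
      · exact Or.inl h1
      · right
        have h2 := hpos (-μ) (wt_neg H hμ) (by rw [map_neg]; omega)
          (fun h3 => h1 (by rw [← h3, neg_neg]))
        rw [map_neg] at h2
        omega
  refine ⟨fun μ hμ => ⟨fun h => ?_, fun h => ?_⟩, fun μ hμ h => ?_⟩
  · by_contra h1
    have h2 := hc μ hμ
    rcases (key μ hμ).2 (by omega) with h3 | h3
    · rw [h3, map_neg] at h
      omega
    · omega
  · by_contra h1
    have h2 := hc μ hμ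
    rcases (key μ hμ).1 (by omega) with h3 | h3
    · rw [h3] at h
      omega
    · omega
  · rcases lt_or_gt_of_ne (hc μ hμ) with h1 | h1
    · rcases (key μ hμ).2 h1 with h3 | h3
      · exact Or.inr h3
      · omega
    · rcases (key μ hμ).1 h1 with h3 | h3
      · exact Or.inl h3
      · omega

/-- The signs of `lA`. -/
theorem lA_signs (H : Hyp 𝒜) (hA : AC 𝒜 N n f β E F) (hv : NoVec 𝒜 n f) (hc : Ch2 𝒜 n f c) :
    (∀ μ, Wt 𝒜 μ → (0 < lA N f β c μ → 0 < c μ) ∧ (lA N f β c μ < 0 → c μ < 0)) ∧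
      (∀ μ, Wt 𝒜 μ → lA N f β c μ = 0 → μ = f 1 ∨ μ = -f 1) :=
  signs H hc.ne (lA_zero hA) fun _ h1 h2 h3 => lA_pos hA hv hc h1 h2 h3

/-- The signs of `lB`. -/
theorem lB_signs (H : Hyp 𝒜) (hA : AC 𝒜 N n f β E F) (hv : NoVec 𝒜 n f) (hc : Ch2 𝒜 n f c) :
    (∀ μ, Wt 𝒜 μ → (0 < lB N f β c μ → 0 < c μ) ∧ (lB N f β c μ < 0 → c μ < 0)) ∧
      (∀ μ, Wt 𝒜 μ → lB N f β c μ = 0 → μ = f 0 - f 1 ∨ μ = -(f 0 - f 1)) :=
  signs H hc.ne (lB_zero hA) fun _ h1 h2 h3 => lB_pos hA hv hc h1 h2 h3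

/-- Poles of fields along the wall of `f 1`. -/
theorem wallA_field (H : Hyp 𝒜) (hA : AC 𝒜 N n f β E F) (hv : NoVec 𝒜 n f) (hc : Ch2 𝒜 n f c)
    {y : FP 𝒜} (hy : y.Pi (-f 1)) (hoth : ∀ ψ, y.Pi ψ → ψ ≠ -f 1 → 0 < c ψ)
    {lam : Fin r → ℤ} {v : VF R} (hw : HV 𝒜 lam v) (h0 : ∀ y0 : FP 𝒜, Pos c y0 → RgV y0.q v) :
    ∀ d z, Crd y (-f 1) d z → ∃ k : ℕ, RgV y.q ((iK z) ^ k • v) := by
  obtain ⟨c1, c0⟩ := c01 hA hc
  obtain ⟨h1, h2⟩ := lA_signs H hA hv hc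
  exact H399.wall_field H (lA N f β c) c hc.ne h1 c1 h2 hy hoth
    (fun y1 hy1 ho1 => wall_unique1 H hA hv hc hy1 ho1 hy hoth) (lA_zero hA) hw h0

/-- Poles of functions along the wall of `f 1`. -/
theorem wallA_fun (H : Hyp 𝒜) (hA : AC 𝒜 N n f β E F) (hv : NoVec 𝒜 n f) (hc : Ch2 𝒜 n f c)
    {y : FP 𝒜} (hy : y.Pi (-f 1)) (hoth : ∀ ψ, y.Pi ψ → ψ ≠ -f 1 → 0 < c ψ)
    {m : Fin r → ℤ} {x : FractionRing R} (hx : HK 𝒜 0 m x)
    (h0 : ∀ y0 : FP 𝒜, Pos c y0 → Rg y0.q x) :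
    ∀ d z, Crd y (-f 1) d z → ∃ k : ℕ, Rg y.q ((iK z) ^ k * x) := by
  obtain ⟨c1, c0⟩ := c01 hA hc
  obtain ⟨h1, h2⟩ := lA_signs H hA hv hc
  exact H399.wall_fun H (lA N f β c) c hc.ne h1 c1 h2 hy hoth
    (fun y1 hy1 ho1 => wall_unique1 H hA hv hc hy1 ho1 hy hoth) (lA_zero hA) hx h0

/-- Poles of fields along the wall of `f 0 - f 1`. -/
theorem wallB_field (H : Hyp 𝒜) (hA : AC 𝒜 N n f β E F) (hv : NoVec 𝒜 n f) (hc : Ch2 𝒜 n f c)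
    {y : FP 𝒜} (hy : y.Pi (-(f 0 - f 1))) (hoth : ∀ ψ, y.Pi ψ → ψ ≠ -(f 0 - f 1) → 0 < c ψ)
    {lam : Fin r → ℤ} {v : VF R} (hw : HV 𝒜 lam v) (h0 : ∀ y0 : FP 𝒜, Pos c y0 → RgV y0.q v) :
    ∀ d z, Crd y (-(f 0 - f 1)) d z → ∃ k : ℕ, RgV y.q ((iK z) ^ k • v) := by
  obtain ⟨c1, c0⟩ := c01 hA hc
  obtain ⟨h1, h2⟩ := lB_signs H hA hv hc
  exact H399.wall_field H (lB N f β c) c hc.ne h1 (by rw [map_sub]; omega) h2 hy hoth
    (fun y1 hy1 ho1 => wall_unique0 H hA hv hc hy1 ho1 hy hoth) (lB_zero hA) hw h0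

/-- Poles of functions along the wall of `f 0 - f 1`. -/
theorem wallB_fun (H : Hyp 𝒜) (hA : AC 𝒜 N n f β E F) (hv : NoVec 𝒜 n f) (hc : Ch2 𝒜 n f c)
    {y : FP 𝒜} (hy : y.Pi (-(f 0 - f 1))) (hoth : ∀ ψ, y.Pi ψ → ψ ≠ -(f 0 - f 1) → 0 < c ψ)
    {m : Fin r → ℤ} {x : FractionRing R} (hx : HK 𝒜 0 m x)
    (h0 : ∀ y0 : FP 𝒜, Pos c y0 → Rg y0.q x) :
    ∀ d z, Crd y (-(f 0 - f 1)) d z → ∃ k : ℕ, Rg y.q ((iK z) ^ k * x) := by
  obtain ⟨c1, c0⟩ := c01 hA hc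
  obtain ⟨h1, h2⟩ := lB_signs H hA hv hc
  exact H399.wall_fun H (lB N f β c) c hc.ne h1 (by rw [map_sub]; omega) h2 hy hoth
    (fun y1 hy1 ho1 => wall_unique0 H hA hv hc hy1 ho1 hy hoth) (lB_zero hA) hx h0

end

end Vale.Agent.P280.H448
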